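import Crest.Agent.N250.Rp.Abs
import Crest.Agent.N250.Se.Dic
import Crest.Agent.N250.R0.CjE
import Crest.Agent.N250.Rm.Sm
import Crest.Agent.N250.Av.CoreX

/-!
# Row 250 (helper55): a real point of the glued system is a real solution
-/

set_option autoImplicit false
open MeasureTheory Set Filter Topology
open scoped ContDiff InnerProductSpace
open Crest.GeometryTopology.MCF

noncomputable section

namespace Crest.Agent.N250.Rp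

open Wr Rm Nq Gc Po B1 R0

variable {S : Mv} {T : St S} (F : Fa T) {σ : WS.Scale T.G}

/-- the real data of a point of the glued system -/
def dd (N : ℕ) (X : ℝ) (a : Fin T.p → ℂ) (ξ : F.Ξ σ) : Fm.Dat T.e where
  X := rX T.P (F.Y ξ)
  R j := Ro.RR fun i => (ξ.2.2 (j, i)).re
  v j y := (vX T.R X (a j) (T.U (F.zE N X a ξ j)) y).re

theorem wv_lip {e : Ends S} (j : Fin e.p) (x y : E) : ‖wv e j y‖ ≤ ‖wv e j x‖ + ‖y - x‖ := by
  have e1 : wv e j y = wv e j x + wv e j (y - x) := by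
    simp only [wv, xi, inner_sub_right, sub_smul]; abel
  have h : ‖wv e j (y - x)‖ ≤ ‖y - x‖ := by
    refine (pow_le_pow_iff_left₀ (norm_nonneg _) (norm_nonneg _) two_ne_zero).1 ?_
    rw [← r2_eq_wv, r2]
    linarith only [sq_nonneg (xi e j (y - x))]
  rw [e1]
  exact (norm_add_le _ _).trans (by linarith only [h])

variable {F} {g : F.I → E → ℝ} {δ : ℝ} {u : T.G.SmC} {M : Mt (Fin T.p)}

/-- the zones -/
theorem sees (hg : ∀ k, ContDiff ℝ ∞ (g k))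
    (hl : ∀ k, Cn.Lin S (Zr F.D) 0 δ (lf T.P (F.φ k)) (g k))
    (hs : ∀ k, ∀ y ∈ tsupport (g k), ∀ j, xi T.e j y < T.R - 7 / 4 ∨ 6 < r2 T.e j y) {p : S.sl 0}
    (hp : ((p : E), (0 : ℝ)) ∈ Fm.Core T.e (T.R + 1 / 3)) (h1 : ‖u.1 p‖ < δ * (1 + ‖(p : E)‖))
    (h2 : ‖rX T.P (F.D.Xh u M) (p, 0) - p‖ ≤ (5 * (T.R + 4))⁻¹ * (1 + ‖(p : E)‖)) :
    Sees F.D u M g p := by
  have hc : Continuous fun q : S.sl 0 => ((q : E), (0 : ℝ)) := by fun_prop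
  by_cases h : ∀ j, ((p : E), (0 : ℝ)) ∈ Off T.e j (T.R + -3 / 2)
  · refine sees_lin hg hl h1 fun j => ?_
    filter_upwards [hc.continuousAt.preimage_mem_nhds ((isOpen_Off j _).mem_nhds (h j))] with q hq
    exact T.cu_off (by norm_num) hq
  · obtain ⟨j, hj⟩ := not_forall.1 h
    have R0 := T.R_ge
    have ht := (tube_or_off T.sta (T.eR_lt (by norm_num)) (p := (p, 0)) p.2 j).resolve_right hj
    have k1 : T.R + -3 / 2 ≤ xi T.e j p := not_lt.1 fun k => hj (Or.inl k)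
    have k2 : xi T.e j p ≤ T.R + 1 / 3 := not_lt.1 fun k => hp j ⟨k, ht.2⟩
    have k3 : r2 T.e j p < 4 := ht.2
    have k4 : ‖(p : E)‖ ≤ T.R + 3 := by
      rw [r2] at k3
      refine abs_le_of_sq_le_sq' ?_ (by linarith only [R0]) |>.2
      nlinarith only [k1, k2, k3, R0]
    have k5 : ‖rX T.P (F.D.Xh u M) (p, 0) - p‖ ≤ 1 / 5 := by
      refine h2.trans ?_
      rw [inv_mul_le_iff₀ (by positivity)]
      linarith only [k4]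
    refine sees_off (fun k hk => ?_) fun k => ?_
    · rcases hs k _ hk j with l | l
      · have := xi_lip (e := T.e) j p (rX T.P (F.D.Xh u M) (p, 0))
        rw [norm_sub_rev] at this
        linarith only [this, l, k1, k5]
      · have l1 := wv_lip (e := T.e) j p (rX T.P (F.D.Xh u M) (p, 0))
        rw [r2_eq_wv] at l k3
        have l2 : ‖wv T.e j p‖ ≤ 2 := (abs_le_of_sq_le_sq' (by linarith only [k3]) two_pos.le).2
        have l3 := pow_le_pow_left₀ (norm_nonneg _) (l1.trans (add_le_add l2 k5)) 2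
        linarith only [l, l3]
    · exact notMem_tsupport_iff_eventuallyEq.1 fun hk =>
        (F.supp k p hk).2 j ⟨by linarith only [k1], k3⟩

theorem ζA_one (k : F.I) (p : S.sl 0) (h : (F.φ k).1 p ≠ 0) :
    zeta T.e (T.R + 1 / 10) (T.R + 1 / 3) p = 1 :=
  T.ze_off (by norm_num) fun j => (tube_or_off' T.sta (T.eR_lt (by norm_num))
    (by linarith : T.R - 2 < T.R + 1 / 10) (p := (p, 0)) p.2 j).resolve_left
      ((F.supp k p (subset_tsupport _ h)).2 j)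

theorem sqrt_cast {v : ℝ} (h : 0 ≤ v) : (2 * (v : ℂ)) ^ (1 / 2 : ℂ) = (√(2 * v) : ℝ) := by
  rw [show (1 / 2 : ℂ) = ((1 / 2 : ℝ) : ℂ) by norm_num, show 2 * (v : ℂ) = ((2 * v : ℝ) : ℂ) by simp,
    ← Complex.ofReal_cpow (by positivity), Real.sqrt_eq_rpow]

theorem cA_eq {X : ℝ} (hX : T.R + 2 ≤ X) (s : ℝ) :
    T.cA s = (st (T.R + 1 / 10) (T.R + 1 / 3) (xr T.R X s) : ℝ) := by
  rcases le_total s (1 / 2) with h | h
  · rw [xr_strip _ _ h]; rfl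
  · rw [St.cA, st_one (by linarith) (by linarith),
      st_one (by linarith) (by linarith [le_xr hX s])]

variable (F) in
/-- a real point -/
structure RP (N : ℕ) (X : ℝ) (a : Fin T.p → ℂ) (ξ : F.Ξ σ) (δ : ℝ) : Prop where
  w : Re T.P (F.w ξ)
  c : ∀ k, (F.c ξ k).im = 0
  β : ∀ l, (ξ.2.2 l).im = 0
  vj : ∀ j s θ i, (vj T.R X (a j) (T.U (F.zE N X a ξ j)) s θ i).im = 0
  dom : ∀ j, F.zE N X a ξ j ∈ CjE.Dm T
  mt : ∀ j (q : ℝ × ℝ), T.R < q.1 → q.1 < T.R + 1 / 3 →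
    T.rW j (F.w ξ) q = (2 * T.vU (F.zE N X a ξ j) q) ^ (1 / 2 : ℂ)
  eq : ∀ p : S.sl 0, (∀ j, ((p : E), (0 : ℝ)) ∉ tube T.e j (T.R + 1 / 3)) →
    F.EQ ξ p = 0 ∧ F.D.Nd (F.w ξ) (T.TT ξ.2.2) (F.c ξ) p
  s1 : ∀ p : S.sl 0, T.G.ζ.1 p = 1 → ‖(F.w ξ).1 p‖ < δ * (1 + ‖(p : E)‖)
  s2 : ∀ p : S.sl 0, T.G.ζ.1 p = 1 →
    ‖rX T.P (F.Y ξ) (p, 0) - p‖ ≤ (5 * (T.R + 4))⁻¹ * (1 + ‖(p : E)‖)
  cl : ∀ p : S.sl 0, T.G.ζ.1 p = 1 → T.G.Cl (F.Y ξ) p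

theorem intg_ζA {Y : Fin 3 → T.G.SmC} (h : ∀ p : S.sl 0, T.G.ζ.1 p = 1 → T.G.Cl Y p) :
    Integrable (T.G.lagC (T.G.oR T.ζA) Y) T.G.M.mu := by
  refine T.G.intg_cW.mono' (T.G.aesm_lagC _ _) (.of_forall fun p => ?_)
  have h0 := T.G.one_le_rt p
  by_cases hz : T.ζA.1 p = 0
  · rw [WS.Geo.lagC, show (T.G.oR T.ζA).1 p = (T.ζA.1 p : ℂ) from rfl, hz, Complex.ofReal_zero,
      zero_mul, norm_zero]
    positivity
  · refine ((h p (T.ζ_one_of_ne (by norm_num) (by norm_num) (by norm_num) hz)).lag_le _).trans ?_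
    refine mul_le_mul_of_nonneg_right (le_trans ?_ h0) (by positivity)
    exact ((Complex.norm_real _).trans (Real.norm_of_nonneg (T.ze_nonneg _ _ p))).trans_le
      (T.ze_le_one _ _ p)

theorem grad_cmul (c : ℝ) {f : E → ℝ} {x : E} (hf : DifferentiableAt ℝ f x) (v : E) :
    ⟪gradient (fun y => c * f y) x, v⟫_ℝ = c * ⟪gradient f x, v⟫_ℝ := by
  rw [Am.inner_grad, Am.inner_grad, fderiv_const_mul hf]; rfl

theorem AC_eq (Y : Fin 3 → T.G.SmC) : T.AC Y = T.G.actC (T.G.oR T.ζA) Y := rfl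

theorem AE_eq (z : Par T.ℓ) : T.AE z = Fm.Ac.actC T.cA T.R z.1 z.2.1 (T.U z) := rfl

variable {N : ℕ} {X : ℝ} {a : Fin T.p → ℂ} {ξ : F.Ξ σ}

theorem rX_fr {Y : Fin 3 → T.G.SmC} {p : S.sl 0} {Q : E ≃ₗᵢ[ℝ] E} {θ x ρ : ℝ}
    (h : Cj.val Y p = Cj.frC (Cj.fQ Q) θ x ρ 0) : rX T.P Y (p, 0) = fr Q θ x ρ 0 := by
  ext c
  have e := congrFun (Cj.cx_fr Q θ x ρ 0) c
  rw [Complex.ofReal_zero, ← h] at e
  rw [rX_apply]
  exact (congrArg Complex.re e).symm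

theorem end_act (c : CjE.Sz' T) (hX : T.R + 2 ≤ X) {z : Par T.ℓ} (hz : z ∈ CjE.Dm T) {a : ℂ}
    (h1 : z.1 = X) (h2 : z.2.1 = a) (hr : ∀ s θ i, (vj T.R X a (T.U z) s θ i).im = 0)
    {v : ℝ × ℝ → ℝ} (hv : v = fun y => (vX T.R X a (T.U z) y).re) : 0 ≤ (T.AE z).re ∧
    ∫⁻ q in strip (Ioo (T.R + 1 / 10) X), ENNReal.ofReal
      (st (T.R + 1 / 10) (T.R + 1 / 3) q.1 * (√(Qv v q) *
      ((4 * Real.pi)⁻¹ * Real.exp (-q.1 ^ 2 / 4 - v q / 2)))) =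
      ENNReal.ofReal ((T.AE z).re / (4 * Real.pi)) := by
  have s1 := CjE.sl hz
  have j1 := s1.sol.jet
  have p1 := fun s θ => s1.re_pos c (fun _ => s) (0, θ)
  rw [AE_eq]
  simp only [vk] at p1
  rw [h1, h2] at p1 ⊢
  rw [h1] at j1
  refine (Fm.Ac.act_real hX j1 hr p1 (contDiff_st (T.R + 1 / 10) (T.R + 1 / 3)).continuous
    (st_nonneg _ _) (by linarith : T.R ≤ T.R + 1 / 10) (by linarith)
    (fun x hx => st_zero (by linarith) hx) (fun s _ => cA_eq hX s) fun s θ _ _ => ?_).2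
  simp only [hv, vX, vk, tX_xr hX]

namespace RP

variable (h : RP F N X a ξ δ)
include h

theorem hT (j : Fin T.p) (c d : Fin 3) : (T.TT ξ.2.2 j c d).im = 0 :=
  rotT_im (β := fun j i => ξ.2.2 (j, i)) (fun _ _ => h.β _) j c d

theorem hY (c : Fin 3) : Re T.P (F.Y ξ c) := re_Xh F.D h.hT h.w c

theorem hv (c : CjE.Sz' T) (j : Fin T.p) :
    (∀ y, ((dd F N X a ξ).v j y : ℂ) = vX T.R X (a j) (T.U (F.zE N X a ξ j)) y) ∧
      (∀ y, 0 < (dd F N X a ξ).v j y) ∧ Per ((dd F N X a ξ).v j) ∧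
      ContDiffOn ℝ 2 ((dd F N X a ξ).v j) (Icc T.R X ×ˢ univ) ∧
      ContDiffOn ℝ ∞ ((dd F N X a ξ).v j) (Ioc T.R X ×ˢ univ) ∧
      ∀ y : ℝ × ℝ, y.1 ∈ Ioo T.R X → ELv ((dd F N X a ξ).v j) y = 0 :=
  (CjE.sl (h.dom j)).real c (div_pos T.k.c0_pos T.R_pos) (fun m => (T.ℓ_l m).ge) (h.vj j) rfl

theorem mt' (c : CjE.Sz' T) (hX : T.R + 2 ≤ X) (j : Fin T.p) (q : ℝ × ℝ) (h1 : T.R < q.1)
    (h2 : q.1 < T.R + 1 / 3) : (dd F N X a ξ).X (pX (T.e.Q j) (T.e.r j) q, 0) =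
      pX ((dd F N X a ξ).Q j) ((dd F N X a ξ).r j) q := by
  have hq : T.e.R < q.1 := T.eR_lt' (by linarith)
  have e1 := F.Xh_ψ (j := j) (q := q) (F.w ξ) ξ.2.2 (by linarith)
  have e2 : T.rW j (F.w ξ) q = ((dd F N X a ξ).r j q : ℝ) := by
    rw [h.mt j q h1 h2, St.vU, Fm.Dat.r, ← sqrt_cast ((h.hv c j).2.1 q).le, (h.hv c j).1 q,
      vX_strip (D := (F.zE N X a ξ j).2.2) hX (by linarith)]
    rfl
  have e3 : fR (T.e.Q j) (fun i => ξ.2.2 (j, i)) = Cj.fQ ((dd F N X a ξ).Q j) := by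
    rw [show (fun i => ξ.2.2 (j, i)) = fun i => (((ξ.2.2 (j, i)).re : ℝ) : ℂ) from
      funext fun i => Complex.ext rfl (h.β _)]
    exact (Ro.fQ_RR (fun i => (ξ.2.2 (j, i)).re) (T.e.Q j)).symm
  rw [Cj.pC, e2, e3] at e1
  rw [← T.hψ j q hq, pX_eq]
  exact rX_fr e1

variable (hg : ∀ k, ContDiff ℝ ∞ (g k)) (hl : ∀ k, Cn.Lin S (Zr F.D) 0 δ (lf T.P (F.φ k)) (g k))
  (hs : ∀ k, ∀ y ∈ tsupport (g k), ∀ j, xi T.e j y < T.R - 7 / 4 ∨ 6 < r2 T.e j y)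
  {n : ℕ} (τ : Fin n ≃ F.I)
include hg hl hs

theorem sees' (p : S.sl 0) (k : ((p : E), (0 : ℝ)) ∈ Fm.Core T.e (T.R + 1 / 3)) :
    Sees F.D (F.w ξ) (T.TT ξ.2.2) g p :=
  have hz : T.G.ζ.1 p = 1 := zeta_core (P := T.P) (by rw [T.ha']; linarith) (q := (p, 0)) p.2 k
  sees hg hl hs k (h.s1 p hz) (h.s2 p hz)

theorem el' (p : ST) (h1 : p ∈ S.M) (h2 : p ∈ Fm.Core T.e (T.R + 1 / 3)) :
    gau 0 1 (rX T.P (F.Y ξ) p) * S.ELX (rX T.P (F.Y ξ)) p / 2 =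
      ∑ i, (F.c ξ (τ i)).re / (4 * Real.pi) * (S.sX (rX T.P (F.Y ξ)) p ^ 2 *
        ⟪gradient (fun y => 4 * Real.pi * gau 0 1 y * g (τ i) y) (rX T.P (F.Y ξ) p),
          S.NX (rX T.P (F.Y ξ)) p⟫_ℝ + S.HX (rX T.P (F.Y ξ)) p *
          (4 * Real.pi * gau 0 1 (rX T.P (F.Y ξ) p) * g (τ i) (rX T.P (F.Y ξ) p))) := by
  obtain ⟨x, t⟩ := p
  have hp := Real.pi_pos
  have hx : x ∈ S.sl 0 := mem_sl T.P h1
  have k := el_of (p := ⟨x, hx⟩) h.w h.hT h.c hg (h.sees' hg hl hs ⟨x, hx⟩ h2) (h.eq ⟨x, hx⟩ h2).2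
    (h.eq ⟨x, hx⟩ h2).1
  have t1 : S.ELX (rX T.P (F.Y ξ)) (x, t) = S.ELX (rX T.P (F.Y ξ)) (x, 0) :=
    Complex.ofReal_injective ((ELX_eq h.hY ⟨x, hx⟩ t).symm.trans (ELX_eq h.hY ⟨x, hx⟩ 0))
  have t2 : S.HX (rX T.P (F.Y ξ)) (x, t) = S.HX (rX T.P (F.Y ξ)) (x, 0) :=
    Complex.ofReal_injective ((HX_eq h.hY ⟨x, hx⟩ t).symm.trans (HX_eq h.hY ⟨x, hx⟩ 0))
  have t3 : S.NX (rX T.P (F.Y ξ)) (x, t) = S.NX (rX T.P (F.Y ξ)) (x, 0) :=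
    T.sta.NX_eq (rX_st _) x t
  rw [← Fa.Y, ← τ.sum_comp] at k
  rw [t1, t2, Mv.sX, t3, ← Mv.sX, rX_st _ x t, k]
  refine Finset.sum_congr rfl fun i _ => ?_
  simp only [mul_assoc (4 * Real.pi)]
  rw [grad_cmul _ ((Am.contDiff_gau.mul (hg _)).differentiable (by simp) _)]
  field_simp

theorem pair' (hδ : 0 ≤ δ) (k : F.I) : ∫ x, zeta T.e (T.R + 1 / 10) (T.R + 1 / 3) x *
    (4 * Real.pi * gau 0 1 (rX T.P (F.Y ξ) (x, 0)) * g k (rX T.P (F.Y ξ) (x, 0)) *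
      S.sX (rX T.P (F.Y ξ)) (x, 0)) ∂S.mu 0 =
    ∫ x, 4 * Real.pi * gau 0 1 x * g k x ∂S.mu 0 + (F.II ξ k).re := by
  have hp : 0 < 4 * Real.pi := by positivity
  have k1 := pair_of (by linarith : T.R + 1 / 10 < T.R + 1 / 3) h.w h.hT (h.sees' hg hl hs) ζA_one
    (fun i x hx => Am.lin_zero (hl i) hδ hx) k
  have e : T.G.actC (F.w ξ * T.G.oR (F.D.φ k)) (F.Y ξ) = F.II ξ k := by
    rw [mul_comm]; rfl
  rw [← Fa.Y, e] at k1
  have k2 := congrArg (4 * Real.pi * ·) k1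
  simp only [mul_add, ← integral_const_mul] at k2
  rw [mul_div_cancel₀ _ hp.ne'] at k2
  simp only [mul_assoc (4 * Real.pi)]
  rw [← k2]
  exact integral_congr_ae (.of_forall fun x => by ring)

omit hg hl hs in
theorem act' (c : CjE.Sz' T) (hX : T.R + 2 ≤ X) :
    ∫⁻ x, ENNReal.ofReal (zeta T.e (T.R + 1 / 10) (T.R + 1 / 3) x *
      (gau 0 1 (rX T.P (F.Y ξ) (x, 0)) * S.sX (rX T.P (F.Y ξ)) (x, 0))) ∂S.mu 0 +
    ∑ j, ∫⁻ q in strip (Ioo (T.R + 1 / 10) X), ENNReal.ofReal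
      (st (T.R + 1 / 10) (T.R + 1 / 3) q.1 * (√(Qv ((dd F N X a ξ).v j) q) *
      ((4 * Real.pi)⁻¹ * Real.exp (-q.1 ^ 2 / 4 - (dd F N X a ξ).v j q / 2)))) =
    ENNReal.ofReal ((F.AT N X a ξ).re / (4 * Real.pi)) := by
  have hp : 0 < 4 * Real.pi := by positivity
  obtain ⟨a0, a1⟩ := act_lint h.hY (w := T.G.oR T.ζA) (z := zeta T.e (T.R + 1 / 10) (T.R + 1 / 3))
    (fun _ => rfl) (zeta_nonneg _ _) (intg_ζA h.cl)
  have b := fun j => end_act c hX (h.dom j) rfl rfl (h.vj j) (v := (dd F N X a ξ).v j) rfl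
  rw [a1, Finset.sum_congr rfl fun j _ => (b j).2,
    ← ENNReal.ofReal_sum_of_nonneg fun j _ => div_nonneg (b j).1 hp.le,
    ← ENNReal.ofReal_add (div_nonneg a0 hp.le)
      (Finset.sum_nonneg fun j _ => div_nonneg (b j).1 hp.le), ← Finset.sum_div, ← add_div,
    Fa.AT, Complex.add_re, Complex.re_sum, AC_eq]

/-- **a real point is a real solution** -/
theorem sol (c : CjE.Sz' T) (hδ : 0 ≤ δ) (hX : T.R + 2 ≤ X) :
    (dd F N X a ξ).Sol (fun i y => 4 * Real.pi * gau 0 1 y * g (τ i) y) (T.R + 1 / 10) (T.R + 1 / 3) X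
      (fun i => (F.II ξ (τ i)).re) (fun i => (F.c ξ (τ i)).re / (4 * Real.pi))
      ((F.AT N X a ξ).re / (4 * Real.pi)) where
  sm := sm_rX _
  st := rX_st _
  smv j := (h.hv c j).2.2.2.2.1.mono fun _ hq => ⟨⟨by linarith [hq.1], hq.2.le⟩, trivial⟩
  per j := (h.hv c j).2.2.1
  elv j q h1 h2 := (h.hv c j).2.2.2.2.2 q ⟨by linarith, h2⟩
  mt j q h1 h2 := h.mt' c hX j q (by linarith) h2
  el := h.el' hg hl hs τ
  pair i := h.pair' hg hl hs hδ (τ i)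
  act := (h.act' c hX).le

end RP

end Crest.Agent.N250.Rp

end
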