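import Crest.Agent.N250.Rm.Br
import Crest.Agent.N250.Nq.Defs
import Crest.Agent.N250.Am.Fv
import Crest.Agent.N250.Gc.Var
import Crest.Agent.N250.Fm.En
import Crest.Agent.N250.Wr.Cut
import Crest.Agent.N250.Ro.Rot
import Crest.Agent.N250.Fm.Act
import Crest.Agent.N250.B1.Sm4

/-!
# Row 250 (helper55): a real solution of the core equation in the form of `Fm.Dat.Sol`
-/

set_option autoImplicit false
set_option linter.unusedSectionVars false
open MeasureTheory Set Filter Topology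
open scoped ContDiff InnerProductSpace
open Crest.GeometryTopology.MCF

noncomputable section

namespace Crest.Agent.N250.Rp

open Wr Rm Nq Gc Po

variable {S : Mv} {P : Prm S} {J κ : Type} (D : Dt P.geo J κ)

/-- the transversal field -/
def Zr (q : ST) : E := WithLp.toLp 2 fun c => lf P (D.Z c) q

theorem Zr_apply (p : S.sl 0) (t : ℝ) (c : Fin 3) : Zr D (p, t) c = (D.Z c).1 p := lf_apply _ p t

theorem inner_cast (v w : E) :
    ((⟪v, w⟫_ℝ : ℝ) : ℂ) = dot (fun c => ((v c : ℝ) : ℂ)) fun c => ((w c : ℝ) : ℂ) := by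
  rw [inner_eq_dot]; exact map_dot Complex.ofRealHom _ _

theorem ev_sl {q : S.sl 0 → Prop} {p : S.sl 0} (h : ∀ᶠ x in 𝓝 p, q x) :
    ∀ᶠ x in 𝓝 (p : E), ∀ hx : x ∈ S.sl 0, q ⟨x, hx⟩ := by
  rw [nhds_subtype_eq_comap, eventually_comap] at h
  exact h.mono fun x hx k => hx ⟨x, k⟩ rfl

variable [Fintype J] [Fintype κ] {u : P.geo.SmC} {T : Mt J} {c : κ → ℂ}

theorem mv_apply (T : Mt J) (w : Fin 3 → P.geo.R) (c : Fin 3) (p : S.sl 0) :
    (D.mv T w c).1 p = ∑ j, ∑ d, T j c d * (((D.χ j).1 p * (w d).1 p : ℝ) : ℂ) := by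
  change Cj.ev P.geo p _ = _
  simp only [Dt.mv, map_sum]
  rfl

theorem Xh_apply (u : P.geo.SmC) (T : Mt J) (c : Fin 3) (p : S.sl 0) :
    (D.Xh u T c).1 p = ((p : E) c : ℂ) + ((D.yy T c).1 p + u.1 p * (D.VV T c).1 p) := rfl

theorem VV_apply (T : Mt J) (c : Fin 3) (p : S.sl 0) :
    (D.VV T c).1 p = ((D.Z c).1 p : ℂ) + (D.mv T D.Z c).1 p := rfl

theorem ph_apply (c : κ → ℂ) (p : S.sl 0) : (D.ph c).1 p = ∑ i, c i * ((D.φ i).1 p : ℂ) := by
  change Cj.ev P.geo p _ = _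
  simp only [Dt.ph, map_sum]
  rfl

section Real

variable (hT : ∀ j c d, (T j c d).im = 0)
include hT

theorem re_mv (w : Fin 3 → P.geo.R) (c : Fin 3) : Re P (D.mv T w c) :=
  Re.sum _ fun _ => Re.sum _ fun _ => (re_oR _).smul (hT _ _ _)

theorem re_VV (c : Fin 3) : Re P (D.VV T c) := (re_oR _).add (re_mv D hT _ c)

theorem re_Xh (hu : Re P u) (c : Fin 3) : Re P (D.Xh u T c) :=
  (re_oR _).add ((re_mv D hT _ c).add (hu.mul (re_VV D hT c)))

end Real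

/-- off the rotation zones the map is a graph along `Z` -/
theorem graph_of {p : S.sl 0} (h : ∀ j, (D.χ j).1 p = 0) (t : ℝ) :
    rX P (D.Xh u T) (p, t) = p + rf P u (p, t) • Zr D (p, t) ∧ rX P (D.VV T) (p, t) = Zr D (p, t) := by
  constructor <;> ext c <;>
    simp [rX_apply, Xh_apply, VV_apply, Dt.yy, mv_apply, h, rf_apply, Zr_apply]

/-- the constraint functions see the graph function -/
structure Sees (D : Dt P.geo J κ) (u : P.geo.SmC) (T : Mt J) (g : κ → E → ℝ) (p : S.sl 0) : Prop where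
  val : ∀ i, ∀ᶠ x in 𝓝 (p : E), x ∈ S.sl 0 →
    g i (rX P (D.Xh u T) (x, 0)) = rf P u (x, 0) * lf P (D.φ i) (x, 0)
  grad : ∀ i, ⟪gradient (g i) (rX P (D.Xh u T) (p, 0)), rX P (D.VV T) (p, 0)⟫_ℝ = lf P (D.φ i) (p, 0)

variable {D} {g : κ → E → ℝ} {p : S.sl 0} {δ : ℝ}

theorem sees_lin (hg : ∀ i, ContDiff ℝ ∞ (g i)) (hl : ∀ i, Cn.Lin S (Zr D) 0 δ (lf P (D.φ i)) (g i))
    (hs : ‖u.1 p‖ < δ * (1 + ‖(p : E)‖)) (h : ∀ j, ∀ᶠ x in 𝓝 p, (D.χ j).1 x = 0) :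
    Sees D u T g p := by
  have hs' : |rf P u (p, 0)| < δ * (1 + ‖(p : E)‖) := by
    rw [rf_apply]; exact (Complex.abs_re_le_norm _).trans_lt hs
  have h' := eventually_all.2 h
  refine ⟨fun i => Am.val_graph (hl i) (sm_rf u) p.2 hs' ?_, fun i => ?_⟩
  · exact (ev_sl h').mono fun x hx k => (graph_of D (hx k) 0).1
  · rw [(graph_of D h'.self_of_nhds 0).1, (graph_of D (u := u) h'.self_of_nhds 0).2]
    exact Am.grad_Z (hl i) ((hg i).differentiable (by simp)) p.2 hs'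

theorem sees_off (h1 : ∀ i, rX P (D.Xh u T) (p, 0) ∉ tsupport (g i))
    (h2 : ∀ i, ∀ᶠ x in 𝓝 p, (D.φ i).1 x = 0) : Sees D u T g p := by
  refine ⟨fun i => ?_, fun i => ?_⟩
  · have hc : ContinuousWithinAt (fun x : E => rX P (D.Xh u T) (x, 0)) (S.sl 0) p :=
      ((sm_rX _).continuousOn.comp (Continuous.prodMk_left 0).continuousOn fun _ h => h) p p.2
    filter_upwards [ev_sl (h2 i), eventually_nhdsWithin_iff.1
      (hc.eventually ((isClosed_tsupport _).isOpen_compl.mem_nhds (h1 i)))] with x a b hx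
    rw [image_eq_zero_of_notMem_tsupport (b hx), lf_apply _ ⟨x, hx⟩, a hx, mul_zero]
  · rw [Am.inner_grad, (notMem_tsupport_iff_eventuallyEq.1 (h1 i)).fderiv_eq, lf_apply,
      (h2 i).self_of_nhds]
    simp

theorem D_uph (hu : Re P u) (hc : ∀ i, (c i).im = 0) (a : Fin 3) (p : S.sl 0) :
    (P.geo.SC.D a (u * D.ph c)).1 p =
      (∑ i, (c i).re * S.D a (fun q => rf P u q * lf P (D.φ i) q) (p, 0) : ℝ) := by
  have e : u * D.ph c = ∑ i, c i • (u * P.geo.oR (D.φ i)) := by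
    simp only [Dt.ph, Finset.mul_sum, mul_smul_comm]
  have e2 : ∀ i, S.D a (fun q => rf P u q * lf P (D.φ i) q) (p, 0) =
      S.D a (rf P (u * P.geo.oR (D.φ i))) (p, 0) := fun i => Mv.D_congr' p.2 (fun q hq => by
    have k := mem_sl P hq
    change rf P u ((⟨q.1, k⟩ : S.sl 0), q.2) * lf P (D.φ i) ((⟨q.1, k⟩ : S.sl 0), q.2) =
      rf P _ ((⟨q.1, k⟩ : S.sl 0), q.2)
    rw [rf_apply, rf_apply, lf_apply]
    exact (Complex.re_mul_ofReal _ _).symm) a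
  have e3 := congrArg (Cj.ev P.geo p) (map_sum (P.geo.DLin a)
    (fun i => c i • (u * P.geo.oR (D.φ i))) Finset.univ)
  rw [← e, map_sum] at e3
  refine e3.trans ?_
  push_cast
  refine Finset.sum_congr rfl fun i _ => ?_
  rw [map_smul, e2, ← (hu.mul (re_oR _)).D_eq a p 0,
    show (((c i).re : ℝ) : ℂ) = c i from Complex.ext rfl (hc i).symm]
  rfl

/-- the equation -/
theorem el_of (hu : Re P u) (hT : ∀ j c d, (T j c d).im = 0) (hc : ∀ i, (c i).im = 0)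
    (hg : ∀ i, ContDiff ℝ ∞ (g i)) (hs : Sees D u T g p) (hn : D.Nd u T c p)
    (he : D.EQ u T c p = 0) :
    gau 0 1 (rX P (D.Xh u T) (p, 0)) * S.ELX (rX P (D.Xh u T)) (p, 0) / 2 =
      ∑ i, (c i).re * (S.sX (rX P (D.Xh u T)) (p, 0) ^ 2 *
        ⟪gradient (fun y => gau 0 1 y * g i y) (rX P (D.Xh u T) (p, 0)),
          S.NX (rX P (D.Xh u T)) (p, 0)⟫_ℝ +
        S.HX (rX P (D.Xh u T)) (p, 0) *
          (gau 0 1 (rX P (D.Xh u T) (p, 0)) * g i (rX P (D.Xh u T) (p, 0)))) := by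
  have hX := re_Xh D hT hu
  have hV := val_eq (re_VV D hT) p 0
  have eN : (D.NZ u T).1 p = (⟪S.NX (rX P (D.Xh u T)) (p, 0), rX P (D.VV T) (p, 0)⟫_ℝ : ℝ) := by
    rw [Dt.NZ, Cj.dot_val, hV, inner_cast]
    congr 1
    exact funext fun c => NX_eq hX p 0 c
  have eP : (D.ph c).1 p = (∑ i, (c i).re * lf P (D.φ i) (p, 0) : ℝ) := by
    rw [ph_apply]
    push_cast
    exact Finset.sum_congr rfl fun i _ => by
      rw [lf_apply]; congr 1; exact Complex.ext rfl (hc i)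
  have eW : ∀ a, (dot (P.geo.SC.WX (D.Xh u T) a) (D.VV T)).1 p =
      (dot (S.WX (rX P (D.Xh u T)) (p, 0) a) fun c => rX P (D.VV T) (p, 0) c : ℝ) := fun a => by
    rw [Cj.dot_val, hV, show Cj.val (P.geo.SC.WX (D.Xh u T) a) p = _ from
      funext fun c => WX_eq hX p 0 a c]
    exact (map_dot Complex.ofRealHom _ _).symm
  have eM : (D.Mu u T c).1 p = (P.geo.SC.GX (D.Xh u T)).1 p * (D.ph c).1 p -
      ∑ a, (dot (P.geo.SC.WX (D.Xh u T) a) (D.VV T)).1 p * (P.geo.SC.D a (u * D.ph c)).1 p := by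
    rw [← Cj.ev_apply]
    simp only [Dt.Mu, map_sub, map_mul, map_sum]
    rfl
  have k : (P.geo.SC.ELX (D.Xh u T)).1 p * (D.NZ u T).1 p * (1 - u.1 p * (D.ph c).1 p) =
      2 * (P.geo.SC.GX (D.Xh u T)).1 p * (D.Mu u T c).1 p := by
    have h1 := hn.GX
    have h2 := hn.NZ
    have h3 := hn.d3
    rw [Dt.EQ, sub_eq_zero, div_eq_div_iff (mul_ne_zero (mul_ne_zero two_ne_zero h1) h2)
      (mul_ne_zero (pow_ne_zero 2 h2) h3)] at he
    refine mul_right_cancel₀ h2 ?_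
    linear_combination he
  refine Am.el_of_eq (p := (p, 0)) (c := fun i => (c i).re) P.shr.reg p.2 (sm_rX _) (sm_rf u)
    (fun i => sm_lf (D.φ i)) hg hs.val hs.grad (fun h0 => hn.NZ (by rw [eN, h0]; rfl)) ?_
  simp only [eM, eN, eP, eW, D_uph hu hc, ELX_eq hX p 0, GX_eq hX p 0, hu.eq p 0] at k
  exact_mod_cast k

/-! ### integrals -/

section Int

variable {Y : Fin 3 → P.geo.SmC} (hY : ∀ c, Re P (Y c)) {w : P.geo.SmC} {z : E → ℝ}
  (hw : ∀ p : S.sl 0, w.1 p = z p)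
include hY hw

theorem lag_eq (p : S.sl 0) : P.geo.lagC w Y p =
    (4 * Real.pi * (z p * (gau 0 1 (rX P Y (p, 0)) * S.sX (rX P Y) (p, 0))) : ℝ) := by
  rw [WS.Geo.lagC, exp_eq hY p 0, Complex.sqrt, ← one_div, sqrt_GX hY p 0, hw]
  push_cast
  ring

theorem act_eq : P.geo.actC w Y =
    (4 * Real.pi * ∫ x, z x * (gau 0 1 (rX P Y (x, 0)) * S.sX (rX P Y) (x, 0)) ∂S.mu 0 : ℝ) := by
  rw [← integral_const_mul]
  exact integral_eq (g := fun x => 4 * Real.pi * (z x * (gau 0 1 (rX P Y (x, 0)) *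
    S.sX (rX P Y) (x, 0)))) (lag_eq hY hw)

theorem act_lint (h0 : ∀ x, 0 ≤ z x) (hi : Integrable (P.geo.lagC w Y) P.geo.M.mu) :
    0 ≤ (P.geo.actC w Y).re ∧
    ∫⁻ x, ENNReal.ofReal (z x * (gau 0 1 (rX P Y (x, 0)) * S.sX (rX P Y) (x, 0))) ∂S.mu 0 =
      ENNReal.ofReal ((P.geo.actC w Y).re / (4 * Real.pi)) := by
  have hp : 0 < 4 * Real.pi := by positivity
  have hn : ∀ x, 0 ≤ z x * (gau 0 1 (rX P Y (x, 0)) * S.sX (rX P Y) (x, 0)) := fun x =>
    mul_nonneg (h0 x) (mul_nonneg (by unfold gau; positivity) (Mv.sX_nonneg _))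
  have h1 := (integrable_const_mul_iff hp.ne'.isUnit _).1 ((integrable_iff (g := fun x =>
    4 * Real.pi * (z x * (gau 0 1 (rX P Y (x, 0)) * S.sX (rX P Y) (x, 0)))) (lag_eq hY hw)).1 hi)
  rw [act_eq hY hw, Complex.ofReal_re, mul_div_cancel_left₀ _ hp.ne']
  exact ⟨mul_nonneg hp.le (integral_nonneg hn),
    (ofReal_integral_eq_lintegral_ofReal h1 (.of_forall hn)).symm⟩

end Int

theorem core_of_zeta {e : Ends S} {a b : ℝ} (hab : a < b) {x : E}
    (hz : zeta e a b x ≠ 0) : (x, (0 : ℝ)) ∈ Fm.Core e b :=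
  fun _ hj => hz (zeta_zero (p := (x, 0)) hab hj)

/-- the constraints -/
theorem pair_of {a b : ℝ} (hab : a < b) (hu : Re P u)
    (hT : ∀ j c d, (T j c d).im = 0)
    (hs : ∀ p : S.sl 0, ((p : E), (0 : ℝ)) ∈ Fm.Core P.e b → Sees D u T g p)
    (hφ : ∀ i (p : S.sl 0), (D.φ i).1 p ≠ 0 → zeta P.e a b p = 1) (h0 : ∀ i, ∀ x ∈ S.sl 0, g i x = 0)
    (i : κ) : ∫ x, zeta P.e a b x * (gau 0 1 (rX P (D.Xh u T) (x, 0)) * g i (rX P (D.Xh u T) (x, 0)) *
      S.sX (rX P (D.Xh u T)) (x, 0)) ∂S.mu 0 = ∫ x, gau 0 1 x * g i x ∂S.mu 0 +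
        (P.geo.actC (u * P.geo.oR (D.φ i)) (D.Xh u T)).re / (4 * Real.pi) := by
  have hp : 0 < 4 * Real.pi := by positivity
  have e1 : ∫ x, gau 0 1 x * g i x ∂S.mu 0 = 0 := integral_eq_zero_of_ae
    ((ae_restrict_mem (FV.meas_sl P.shr.reg 0)).mono fun x hx => by simp only [h0 i x hx, mul_zero]; rfl)
  rw [e1, zero_add, act_eq (re_Xh D hT hu)
    (z := fun x => zeta P.e a b x * g i (rX P (D.Xh u T) (x, 0))) fun p => ?_,
    Complex.ofReal_re, mul_div_cancel_left₀ _ hp.ne']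
  · exact integral_congr_ae (.of_forall fun x => by ring)
  · change u.1 p * ((D.φ i).1 p : ℂ) = _
    by_cases hz : zeta P.e a b p = 0
    · have : (D.φ i).1 p = 0 := by_contra fun k => by simp [hφ i p k] at hz
      simp [hz, this]
    · rw [((hs p (core_of_zeta hab hz)).val i).self_of_nhds p.2, lf_apply, hu.eq p 0]
      by_cases k : (D.φ i).1 p = 0
      · simp [k]
      · simp [hφ i p k]

/-! ### matching -/

/-- the rotation matrices -/
def rotT (P : Prm S) (β : Fin P.e.p → Fin 2 → ℂ) : Mt (Fin P.e.p) :=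
  fun j => Ro.TT (Cj.fQ (P.e.Q j)) (β j)

theorem rotT_im {β : Fin P.e.p → Fin 2 → ℂ} (hβ : ∀ j l, (β j l).im = 0) (j : Fin P.e.p)
    (c d : Fin 3) : (rotT P β j c d).im = 0 := by
  have e : star (β j) = β j := funext fun l => Complex.conj_eq_iff_im.2 (hβ j l)
  have := Ro.TT_conj (Ro.fQ_conj (P.e.Q j)) (β j) c d
  rw [e] at this
  exact Complex.conj_eq_iff_im.1 this.symm

theorem rot_of {D : Dt P.geo (Fin P.e.p) κ} {β : Fin P.e.p → Fin 2 → ℂ} (hβ : ∀ j l, (β j l).im = 0)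
    (hu : Re P u) {j : Fin P.e.p} (h : ∀ i, (D.χ i).1 p = if i = j then 1 else 0) :
    rX P (D.Xh u (rotT P β)) (p, 0) = P.e.Q j (Ro.RR (fun l => (β j l).re)
      ((P.e.Q j).symm (p + (u.1 p).re • Zr D (p, 0)))) := by
  ext c
  have e := congrFun (Ro.MM_real (fun l => (β j l).re) (P.e.Q j) (p + (u.1 p).re • Zr D (p, 0))) c
  rw [show (fun l => (((β j l).re : ℝ) : ℂ)) = β j from
    funext fun l => Complex.ext rfl (hβ j l).symm] at e
  have e2 : (((u.1 p).re : ℝ) : ℂ) = u.1 p := Complex.ext rfl (hu p).symm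
  rw [rX_apply, ← Complex.ofReal_re (P.e.Q j _ c)]
  refine congrArg Complex.re (Eq.trans ?_ e)
  simp only [Xh_apply, VV_apply, Dt.yy, mv_apply, h, Ro.MM, Cj.cx, rotT, ite_mul, one_mul, zero_mul,
    apply_ite ((↑) : ℝ → ℂ), Complex.ofReal_zero, mul_ite, mul_zero, PiLp.add_apply, PiLp.smul_apply,
    Zr_apply, smul_eq_mul, Complex.ofReal_add, Complex.ofReal_mul, e2, Finset.sum_ite_irrel, Finset.sum_const_zero,
    Finset.sum_ite_eq', Finset.mem_univ, if_true, Fin.sum_univ_three]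
  change _ + (_ * (((p : E) 0 : ℝ) : ℂ) + _ * (((p : E) 1 : ℝ) : ℂ) + _ * (((p : E) 2 : ℝ) : ℂ) + _) = _
  ring

/-- radial graphs -/
theorem radial {j : Fin P.e.p} {q : ℝ × ℝ} {s ρ : ℝ} (hr : P.e.r j q + s * P.e.r j q = ρ) :
    pX (P.e.Q j) (P.e.r j) q + s • wv P.e j (pX (P.e.Q j) (P.e.r j) q) =
      P.e.Q j (cylP q.1 ρ q.2) := by
  rw [wv_pX, pX, fr, ← map_smul, ← map_add, ← hr]
  congr 1
  ext k
  fin_cases k <;> simp [cylP] <;> ring

end Crest.Agent.N250.Rp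

end
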