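import Crest.Agent.N250.Rm.Br
import Crest.Agent.N250.Am.Fv
import Crest.Agent.N250.Nq.Defs

/-!
# Row 250, real side (helper25): equation and pairings of a real core map
-/

set_option autoImplicit false
set_option linter.unusedSectionVars false
open MeasureTheory Set Filter Topology
open scoped ContDiff InnerProductSpace
open Crest.GeometryTopology.MCF

noncomputable section

namespace Crest.Agent.N250.Rp.El

open Wr Gc Rm

variable {S : Mv} {P : Prm S} {J κ : Type} [Fintype J] [Fintype κ] (D : Nq.Dt P.geo J κ)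

/-- the transversal field on spacetime -/
def Zr (q : ST) : E := WithLp.toLp 2 fun c => lf P (D.Z c) q

variable {D} {u : P.geo.SmC} {T : Nq.Mt J} {c : κ → ℂ}

theorem sm_Zr : S.Sm (Zr D) := Mv.sm_of_cp fun c => sm_lf (D.Z c)

theorem Zr_apply (p : S.sl 0) (t : ℝ) (c : Fin 3) : Zr D (p, t) c = (D.Z c).1 p := lf_apply _ p t

theorem re_mv (hT : ∀ j a b, (T j a b).im = 0) (w : Fin 3 → P.geo.R) (a : Fin 3) :
    Re P (D.mv T w a) :=
  Re.sum _ fun j => Re.sum _ fun d => (re_oR _).smul (hT j a d)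

theorem re_VV (hT : ∀ j a b, (T j a b).im = 0) (a : Fin 3) : Re P (D.VV T a) :=
  (re_oR _).add (re_mv hT _ a)

theorem re_Xh (hu : Re P u) (hT : ∀ j a b, (T j a b).im = 0) (a : Fin 3) : Re P (D.Xh u T a) :=
  (re_oR (P.geo.S.x a)).add ((re_mv hT _ a).add (hu.mul (re_VV hT a)))

theorem re_ph (hc : ∀ i, (c i).im = 0) : Re P (D.ph c) :=
  Re.sum _ fun i => (re_oR _).smul (hc i)

theorem mv_zero {p : S.sl 0} (h : ∀ j, (D.χ j).1 p = 0) (w : Fin 3 → P.geo.R) (a : Fin 3) :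
    (D.mv T w a).1 p = 0 := by
  rw [← Cj.ev_apply, Nq.Dt.mv, map_sum]
  refine Finset.sum_eq_zero fun j _ => ?_
  rw [map_sum]
  refine Finset.sum_eq_zero fun d _ => ?_
  change T j a d * (((D.χ j).1 p * (w d).1 p : ℝ) : ℂ) = 0
  simp [h j]

theorem VV_off {p : S.sl 0} (h : ∀ j, (D.χ j).1 p = 0) (t : ℝ) :
    rX P (D.VV T) (p, t) = Zr D (p, t) := by
  ext a
  rw [rX_apply, Zr_apply]
  change ((((D.Z a).1 p : ℝ) : ℂ) + (D.mv T D.Z a).1 p).re = _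
  rw [mv_zero h, add_zero, Complex.ofReal_re]

/-- off the rotation zone the map is the graph -/
theorem Xh_off {p : S.sl 0} (h : ∀ j, (D.χ j).1 p = 0) (t : ℝ) :
    rX P (D.Xh u T) (p, t) = p + rf P u (p, t) • Zr D (p, t) := by
  ext a
  rw [rX_apply, PiLp.add_apply, PiLp.smul_apply, Zr_apply, rf_apply]
  change (((((p : E) a : ℝ)) : ℂ) + ((D.mv T P.geo.S.x a).1 p +
    u.1 p * ((((D.Z a).1 p : ℝ) : ℂ) + (D.mv T D.Z a).1 p))).re = _
  simp [mv_zero h]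

theorem ph_val (hc : ∀ i, (c i).im = 0) (p : S.sl 0) (t : ℝ) :
    (D.ph c).1 p = (∑ i, (c i).re * lf P (D.φ i) (p, t) : ℝ) := by
  rw [← Cj.ev_apply, Nq.Dt.ph, map_sum, Complex.ofReal_sum]
  refine Finset.sum_congr rfl fun i _ => ?_
  rw [lf_apply, Complex.ofReal_mul, show (((c i).re : ℝ) : ℂ) = c i from
    Complex.ext rfl (by simp [hc i])]
  rfl

theorem ev_sl {p : S.sl 0} {Q : S.sl 0 → Prop} (h : ∀ᶠ y in 𝓝 p, Q y) :
    ∀ᶠ x in 𝓝 (p : E), ∀ hx : x ∈ S.sl 0, Q ⟨x, hx⟩ := by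
  rw [nhds_subtype, eventually_comap] at h
  exact h.mono fun x hx hx' => hx ⟨x, hx'⟩ rfl

/-- at `p` the ambient functions `g i` see the graph, or nothing -/
def Zn (D : Nq.Dt P.geo J κ) (u : P.geo.SmC) (T : Nq.Mt J) (g : κ → E → ℝ) (δ : ℝ) (p : S.sl 0) :
    Prop :=
  ((∀ j, p ∉ tsupport (D.χ j).1) ∧ ‖u.1 p‖ < δ * (1 + ‖(p : E)‖)) ∨
    ∀ i, p ∉ tsupport (D.φ i).1 ∧ rX P (D.Xh u T) (p, 0) ∉ tsupport (g i)

variable {g : κ → E → ℝ} {δ lam : ℝ} {p : S.sl 0}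

theorem Zn.val (z : Zn D u T g δ p)
    (hl : ∀ i, Cn.Lin S (Zr D) 0 δ (fun q => lam * lf P (D.φ i) q) (g i)) (i : κ) :
    ∀ᶠ x in 𝓝 (p : E), x ∈ S.sl 0 →
      g i (rX P (D.Xh u T) (x, 0)) = rf P u (x, 0) * (lam * lf P (D.φ i) (x, 0)) := by
  rcases z with ⟨h1, h2⟩ | h
  · refine Am.val_graph (hl i) (sm_rf u) p.2
      (by rw [rf_apply]; exact (Complex.abs_re_le_norm _).trans_lt h2) ?_
    have : ∀ᶠ y in 𝓝 p, ∀ j, (D.χ j).1 y = 0 :=
      eventually_all.2 fun j => notMem_tsupport_iff_eventuallyEq.1 (h1 j)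
    exact (ev_sl this).mono fun x hx hx' => Xh_off (p := ⟨x, hx'⟩) (hx hx') 0
  · have h1 : ∀ᶠ y in 𝓝 p, (D.φ i).1 y = 0 := notMem_tsupport_iff_eventuallyEq.1 (h i).1
    have h2 : ContinuousWithinAt (fun x : E => rX P (D.Xh u T) (x, 0)) (S.sl 0) p :=
      Cn.cont_sl (sm_rX _) 0 _ p.2
    have h3 : ∀ᶠ y in 𝓝 (rX P (D.Xh u T) (p, 0)), g i y = 0 :=
      notMem_tsupport_iff_eventuallyEq.1 (h i).2
    filter_upwards [ev_sl h1, eventually_nhdsWithin_iff.1 (h2.eventually h3)] with x k1 k2 hx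
    rw [k2 hx, lf_apply (D.φ i) ⟨x, hx⟩, k1 hx, mul_zero, mul_zero]

theorem Zn.grad (z : Zn D u T g δ p) (hg : ∀ i, ContDiff ℝ ∞ (g i))
    (hl : ∀ i, Cn.Lin S (Zr D) 0 δ (fun q => lam * lf P (D.φ i) q) (g i)) (i : κ) :
    ⟪gradient (g i) (rX P (D.Xh u T) (p, 0)), rX P (D.VV T) (p, 0)⟫_ℝ =
      lam * lf P (D.φ i) (p, 0) := by
  rcases z with ⟨h1, h2⟩ | h
  · have h0 : ∀ j, (D.χ j).1 p = 0 := fun j => image_eq_zero_of_notMem_tsupport (h1 j)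
    rw [Xh_off h0, VV_off h0]
    exact Am.grad_Z (hl i) ((hg i).differentiable (by simp)) p.2
      (by rw [rf_apply]; exact (Complex.abs_re_le_norm _).trans_lt h2)
  · have h3 : g i =ᶠ[𝓝 (rX P (D.Xh u T) (p, 0))] fun _ => 0 :=
      notMem_tsupport_iff_eventuallyEq.1 (h i).2
    rw [h3.gradient_eq, lf_apply, image_eq_zero_of_notMem_tsupport (h i).1]
    simp

theorem dot_VV {V W : Fin 3 → P.geo.SmC} (hV : ∀ a, Re P (V a)) {w : Fin 3 → ℝ}
    (hW : ∀ a, (W a).1 p = w a) :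
    (dot W V).1 p = (dot w (fun a => rX P V (p, 0) a) : ℝ) := by
  rw [Cj.dot_val, val_eq hV p 0, show Cj.val W p = fun a => (w a : ℂ) from funext hW]
  exact (map_dot Complex.ofRealHom _ _).symm

/-- **the equation on the core** -/
theorem el_pt (hu : Re P u) (hT : ∀ j a b, (T j a b).im = 0) (hc : ∀ i, (c i).im = 0)
    (hg : ∀ i, ContDiff ℝ ∞ (g i))
    (hl : ∀ i, Cn.Lin S (Zr D) 0 δ (fun q => lam * lf P (D.φ i) q) (g i))
    {c' : κ → ℝ} (hc' : ∀ i, c' i * lam = (c i).re) (z : Zn D u T g δ p) (nd : D.Nd u T c p)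
    (he : D.EQ u T c p = 0) :
    gau 0 1 (rX P (D.Xh u T) (p, 0)) * S.ELX (rX P (D.Xh u T)) (p, 0) / 2 =
      ∑ i, c' i * (S.sX (rX P (D.Xh u T)) (p, 0) ^ 2 * ⟪gradient (fun y => gau 0 1 y * g i y)
        (rX P (D.Xh u T) (p, 0)), S.NX (rX P (D.Xh u T)) (p, 0)⟫_ℝ +
        S.HX (rX P (D.Xh u T)) (p, 0) *
          (gau 0 1 (rX P (D.Xh u T) (p, 0)) * g i (rX P (D.Xh u T) (p, 0)))) := by
  have hX := re_Xh (D := D) hu hT
  have hV := re_VV (D := D) hT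
  have hp : ((p : E), (0 : ℝ)) ∈ S.M := p.2
  have hs : ∀ i, S.Sm fun q => lam * lf P (D.φ i) q := fun i => (Mv.sm_const lam).mul (sm_lf _)
  have eN : (D.NZ u T).1 p = (⟪S.NX (rX P (D.Xh u T)) (p, 0), rX P (D.VV T) (p, 0)⟫_ℝ : ℝ) := by
    rw [inner_eq_dot]; exact dot_VV hV fun a => NX_eq hX p 0 a
  have eP : (D.ph c).1 p = (∑ i, c' i * (lam * lf P (D.φ i) (p, 0)) : ℝ) := by
    simp only [ph_val hc p 0, ← mul_assoc, hc']
  have eD : ∀ a, (P.geo.SC.D a (u * D.ph c)).1 p =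
      (∑ i, c' i * S.D a (fun q => rf P u q * (lam * lf P (D.φ i) q)) (p, 0) : ℝ) := fun a => by
    have k : ∀ i, S.Sm fun q => rf P u q * (lam * lf P (D.φ i) q) := fun i => (sm_rf u).mul (hs i)
    have k' : ∀ i, S.Sm fun q => c' i * (rf P u q * (lam * lf P (D.φ i) q)) :=
      fun i => (Mv.sm_const _).mul (k i)
    rw [(hu.mul (re_ph hc)).D_eq a p 0, Mv.D_congr' (g := ∑ i, fun q =>
      c' i * (rf P u q * (lam * lf P (D.φ i) q))) hp fun q hq => ?_, P.shr.reg.D_sum hp _ k']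
    · simp only [P.shr.reg.D_const_mul hp _ (k _)]
    · have e1 := rf_apply (u * D.ph c) ⟨q.1, mem_sl P hq⟩ q.2
      have e2 : (u * D.ph c).1 ⟨q.1, mem_sl P hq⟩ = _ * _ := rfl
      rw [e2, hu.eq _ q.2, ph_val hc _ q.2, ← Complex.ofReal_mul, Complex.ofReal_re] at e1
      rw [show rf P (u * D.ph c) q = _ from e1, Finset.sum_apply, Finset.mul_sum]
      exact Finset.sum_congr rfl fun i _ => by rw [← hc']; ring
  have eM : (D.Mu u T c).1 p = (S.sX (rX P (D.Xh u T)) (p, 0) ^ 2 *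
      ∑ i, c' i * (lam * lf P (D.φ i) (p, 0)) - ∑ a, dot (S.WX (rX P (D.Xh u T)) (p, 0) a)
        (fun b => rX P (D.VV T) (p, 0) b) *
        ∑ i, c' i * S.D a (fun q => rf P u q * (lam * lf P (D.φ i) q)) (p, 0) : ℝ) := by
    rw [← Cj.ev_apply, Nq.Dt.Mu, map_sub, map_mul, map_sum]
    simp only [map_mul, Cj.ev_apply, GX_eq hX p 0, eP, eD,
      dot_VV hV fun b => WX_eq hX p 0 _ b]
    push_cast
    rfl
  have n1 := nd.GX
  have n2 := nd.NZ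
  have n3 := nd.d3
  rw [Nq.Dt.EQ, sub_eq_zero, div_eq_div_iff (by simp [n1, n2]) (by simp [n2, n3])] at he
  have he' : (P.geo.SC.ELX (D.Xh u T)).1 p * (D.NZ u T).1 p * (1 - u.1 p * (D.ph c).1 p) =
      2 * (P.geo.SC.GX (D.Xh u T)).1 p * (D.Mu u T c).1 p :=
    mul_right_cancel₀ n2 (by linear_combination he)
  rw [eN] at n2
  rw [ELX_eq hX p 0, GX_eq hX p 0, eN, eP, eM, hu.eq p 0] at he'
  exact Am.el_of_eq (V := rX P (D.VV T) (p, 0)) P.shr.reg hp (sm_rX _) (sm_rf u) hs hg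
    (z.val hl) (z.grad hg hl) (by exact_mod_cast n2) (by exact_mod_cast he')

/-- **the pairings**; `ze` is any cut-off which is `1` on the support of `φ i` -/
theorem pair_eq (hu : Re P u) (hT : ∀ j a b, (T j a b).im = 0)
    (hl : ∀ i, Cn.Lin S (Zr D) 0 δ (fun q => 4 * Real.pi * lf P (D.φ i) q) (g i)) {ze : E → ℝ}
    (z : ∀ p : S.sl 0, ze p ≠ 0 → Zn D u T g δ p) (i : κ)
    (h1 : ∀ p : S.sl 0, (D.φ i).1 p ≠ 0 → ze p = 1) :
    ∫ p, ((D.φ i).1 p : ℂ) * u.1 p * (Complex.exp (-(dot (D.Xh u T) (D.Xh u T)).1 p / 4) *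
        Complex.sqrt ((P.geo.SC.GX (D.Xh u T)).1 p)) ∂P.geo.M.mu =
      (∫ x, ze x * (gau 0 1 (rX P (D.Xh u T) (x, 0)) * g i (rX P (D.Xh u T) (x, 0)) *
        S.sX (rX P (D.Xh u T)) (x, 0)) ∂S.mu 0 : ℝ) := by
  have hX := re_Xh (D := D) hu hT
  refine integral_eq fun p => ?_
  have e : ze p * g i (rX P (D.Xh u T) (p, 0)) = rf P u (p, 0) * (4 * Real.pi * (D.φ i).1 p) := by
    by_cases h0 : (D.φ i).1 p = 0
    · by_cases hz : ze p = 0
      · simp [h0, hz]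
      · rw [((z p hz).val hl i).self_of_nhds p.2, lf_apply, h0]; simp
    · rw [((z p (by rw [h1 p h0]; exact one_ne_zero)).val hl i).self_of_nhds p.2, lf_apply,
        h1 p h0, one_mul]
  have e2 : Complex.sqrt ((P.geo.SC.GX (D.Xh u T)).1 p) = (S.sX (rX P (D.Xh u T)) (p, 0) : ℝ) := by
    rw [← sqrt_GX hX p 0, Complex.sqrt, one_div]
  rw [e2, exp_eq hX p 0, hu.eq p 0]
  norm_cast
  linear_combination -(gau 0 1 (rX P (D.Xh u T) (p, 0)) * S.sX (rX P (D.Xh u T)) (p, 0)) * e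

/-- the constraint functions vanish on `S` -/
theorem int_zero {Z : ST → E} {φ : ST → ℝ} {g : E → ℝ} (hS : S.Reg) (hl : Cn.Lin S Z 0 δ φ g)
    (hδ : 0 ≤ δ) : ∫ x, gau 0 1 x * g x ∂S.mu 0 = 0 :=
  integral_eq_zero_of_ae ((ae_restrict_mem (FV.meas_sl hS 0)).mono fun x hx => by
    simp [Am.lin_zero hl hδ hx])

end Crest.Agent.N250.Rp.El

end
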